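import Mathlib

/-!
# P039-B, L4 (STEP 4 of note 20913): a signed sum over pairs of disjoint matchings is not zero

`β`: blacks, `δ`: faces, `F b c`: the face of class `c` at the black `b`, `V`: the faces which are
matched. `IsM F V f`: `b ↦ F b (f b)` is a bijection onto `V`. `eps 1 = 1`, `eps 2 = -1`.
-/

set_option linter.all false

open Finset

namespace Vale.Agent.P039.L4

/-- the sign of a residue mod 3 -/
def eps (x : Fin 3) : ℤ := if x = 1 then 1 else if x = 2 then -1 else 0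

theorem eps_neg (x : Fin 3) : eps (-x) = -eps x := by
  revert x; decide

theorem eps_zero : eps 0 = 0 := by decide

theorem eps_ne_zero {x : Fin 3} (hx : x ≠ 0) : eps x ≠ 0 := by
  revert x; decide

section

variable {β δ : Type} [Fintype β] [DecidableEq β]

/-- `f` is a matching of the blacks with the faces in `V`. -/
def IsM (F : β → Fin 3 → δ) (V : Set δ) (f : β → Fin 3) : Prop :=
  Set.BijOn (fun b => F b (f b)) Set.univ V

/-- the matchings -/
noncomputable def Ms (F : β → Fin 3 → δ) (V : Set δ) : Finset (β → Fin 3) := by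
  classical exact univ.filter (IsM F V)

theorem mem_Ms {F : β → Fin 3 → δ} {V : Set δ} {f : β → Fin 3} : f ∈ Ms F V ↔ IsM F V f := by
  classical simp [Ms]

/-- the sign of a pair of matchings (zero if they are not disjoint) -/
def sg (f g : β → Fin 3) : ℤ := ∏ b, eps (g b - f b)

theorem sg_eq_zero {f g : β → Fin 3} {b : β} (h : f b = g b) : sg f g = 0 :=
  prod_eq_zero (mem_univ b) (by rw [h, sub_self, eps_zero])

/-- exchange of `f` and `g` where `χ` is true -/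
def sw (χ : β → Bool) (f g : β → Fin 3) (b : β) : Fin 3 := if χ b then g b else f b

theorem sw_sw (χ : β → Bool) (f g : β → Fin 3) : sw χ (sw χ f g) (sw χ g f) = f := by
  funext b
  simp only [sw]
  split_ifs <;> rfl

/-- `χ` is constant on the cycles of `f ∪ g`. -/
def Kc (F : β → Fin 3 → δ) (f g : β → Fin 3) (χ : β → Bool) : Prop :=
  ∀ b b', F b (f b) = F b' (g b') → χ b = χ b'

theorem Kc.symm {F : β → Fin 3 → δ} {f g : β → Fin 3} {χ : β → Bool} (h : Kc F f g χ) :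
    Kc F g f χ := fun b b' hb => (h b' b hb.symm).symm

variable {F : β → Fin 3 → δ} {V : Set δ} {f g : β → Fin 3} {χ χ' : β → Bool}

theorem IsM.inj (h : IsM F V f) {b b' : β} (hb : F b (f b) = F b' (f b')) : b = b' :=
  h.injOn (Set.mem_univ _) (Set.mem_univ _) hb

theorem IsM.mem (h : IsM F V f) (b : β) : F b (f b) ∈ V := h.mapsTo (Set.mem_univ b)

theorem IsM.sw (hf : IsM F V f) (hg : IsM F V g) (hχ : Kc F f g χ) : IsM F V (sw χ f g) := by
  refine ⟨fun b _ => ?_, fun b _ b' _ hb => ?_, fun v hv => ?_⟩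
  · show F b (L4.sw χ f g b) ∈ V
    unfold L4.sw
    split_ifs
    · exact hg.mem b
    · exact hf.mem b
  · change F b (L4.sw χ f g b) = F b' (L4.sw χ f g b') at hb
    unfold L4.sw at hb
    split_ifs at hb with h1 h2 h2
    · exact hg.inj hb
    · exact absurd ((hχ b' b hb.symm).trans h1) h2
    · exact absurd ((hχ b b' hb).trans h2) h1
    · exact hf.inj hb
  · obtain ⟨b, -, hb⟩ := hf.surjOn hv
    obtain ⟨b', -, hb'⟩ := hg.surjOn hv
    by_cases h : χ b = true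
    · refine ⟨b', Set.mem_univ _, ?_⟩
      have h' : χ b' = true := by rw [← hχ b b' (hb.trans hb'.symm)]; exact h
      show F b' (L4.sw χ f g b') = v
      rw [L4.sw, if_pos h']
      exact hb'
    · refine ⟨b, Set.mem_univ _, ?_⟩
      show F b (L4.sw χ f g b) = v
      rw [L4.sw, if_neg h]
      exact hb

theorem Kc_sw (hf : IsM F V f) (hg : IsM F V g) (hχ : Kc F f g χ) :
    Kc F (sw χ f g) (sw χ g f) χ' ↔ Kc F f g χ' := by
  constructor
  · intro h b b' hb
    have h1 := hχ b b' hb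
    by_cases h2 : χ b = true
    · have h3 : χ b' = true := h1 ▸ h2
      refine (h b' b ?_).symm
      rw [sw, sw, if_pos h3, if_pos h2]
      exact hb.symm
    · have h3 : ¬ χ b' = true := h1 ▸ h2
      refine h b b' ?_
      rw [sw, sw, if_neg h3, if_neg h2]
      exact hb
  · intro h b b' hb
    unfold sw at hb
    split_ifs at hb with h1 h2 h2
    · exact (h b' b hb.symm).symm
    · exact congrArg χ' (hg.inj hb)
    · exact congrArg χ' (hf.inj hb)
    · exact h b b' hb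

/-- the invariant functions -/
noncomputable def Ks (F : β → Fin 3 → δ) (p : (β → Fin 3) × (β → Fin 3)) : Finset (β → Bool) := by
  classical exact univ.filter (Kc F p.1 p.2)

theorem mem_Ks {p : (β → Fin 3) × (β → Fin 3)} : χ ∈ Ks F p ↔ Kc F p.1 p.2 χ := by
  classical simp [Ks]

theorem Ks_pos (p : (β → Fin 3) × (β → Fin 3)) : 0 < ((Ks F p).card : ℝ) := by
  have : (fun _ => false) ∈ Ks F p := mem_Ks.2 fun _ _ _ => rfl
  exact_mod_cast card_pos.2 ⟨_, this⟩

/-- the exchange for pairs -/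
def swp (χ : β → Bool) (p : (β → Fin 3) × (β → Fin 3)) : (β → Fin 3) × (β → Fin 3) :=
  (sw χ p.1 p.2, sw χ p.2 p.1)

theorem swp_swp (χ : β → Bool) (p : (β → Fin 3) × (β → Fin 3)) : swp χ (swp χ p) = p :=
  Prod.ext (sw_sw χ p.1 p.2) (sw_sw χ p.2 p.1)

theorem swp_mem {p : (β → Fin 3) × (β → Fin 3)} (hp : p ∈ Ms F V ×ˢ Ms F V) (hχ : χ ∈ Ks F p) :
    swp χ p ∈ Ms F V ×ˢ Ms F V := by
  rw [mem_product, mem_Ms, mem_Ms] at hp ⊢
  rw [mem_Ks] at hχ
  exact ⟨hp.1.sw hp.2 hχ, hp.2.sw hp.1 hχ.symm⟩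

theorem Ks_swp {p : (β → Fin 3) × (β → Fin 3)} (hp : p ∈ Ms F V ×ˢ Ms F V) (hχ : χ ∈ Ks F p) :
    Ks F (swp χ p) = Ks F p := by
  rw [mem_product, mem_Ms, mem_Ms] at hp
  rw [mem_Ks] at hχ
  ext χ'
  rw [mem_Ks, mem_Ks]
  exact Kc_sw hp.1 hp.2 hχ

/-- averaging over the exchanges -/
theorem sum_avg (T : (β → Fin 3) × (β → Fin 3) → ℂ) : ∑ p ∈ Ms F V ×ˢ Ms F V, T p =
    ∑ p ∈ Ms F V ×ˢ Ms F V, ((Ks F p).card : ℂ)⁻¹ * ∑ χ ∈ Ks F p, T (swp χ p) := by
  classical
  have h1 : ∀ p ∈ Ms F V ×ˢ Ms F V, T p = ∑ χ ∈ Ks F p, ((Ks F p).card : ℂ)⁻¹ * T p := by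
    intro p _
    rw [sum_const, nsmul_eq_mul, ← mul_assoc, mul_inv_cancel₀, one_mul]
    exact_mod_cast (Ks_pos (F := F) p).ne'
  rw [sum_congr rfl h1]
  simp only [mul_sum]
  rw [sum_sigma', sum_sigma']
  refine sum_nbij' (fun a => ⟨swp a.2 a.1, a.2⟩) (fun a => ⟨swp a.2 a.1, a.2⟩) ?_ ?_ ?_ ?_ ?_
  · rintro ⟨p, χ⟩ ha
    rw [mem_sigma] at ha ⊢
    exact ⟨swp_mem ha.1 ha.2, by rw [Ks_swp ha.1 ha.2]; exact ha.2⟩
  · rintro ⟨p, χ⟩ ha
    rw [mem_sigma] at ha ⊢
    exact ⟨swp_mem ha.1 ha.2, by rw [Ks_swp ha.1 ha.2]; exact ha.2⟩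
  · rintro ⟨p, χ⟩ _
    simp only [swp_swp]
  · rintro ⟨p, χ⟩ _
    simp only [swp_swp]
  · rintro ⟨p, χ⟩ ha
    rw [mem_sigma] at ha
    simp only [swp_swp]
    rw [Ks_swp ha.1 ha.2]

/-! ### the cycles of a pair -/

theorem exists_perm (hf : IsM F V f) (hg : IsM F V g) :
    ∃ σ : Equiv.Perm β, ∀ b, F (σ b) (g (σ b)) = F b (f b) := by
  have h1 : ∀ b, ∃ b', F b' (g b') = F b (f b) := fun b => by
    obtain ⟨b', -, hb'⟩ := hg.surjOn (hf.mem b)
    exact ⟨b', hb'⟩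
  choose σ hσ using h1
  have hinj : Function.Injective σ := fun b b' hb => by
    refine hf.inj ?_
    rw [← hσ b, ← hσ b', hb]
  exact ⟨Equiv.ofBijective σ (Finite.injective_iff_bijective.1 hinj), hσ⟩

theorem Kc_iff (hg : IsM F V g) {σ : Equiv.Perm β} (hσ : ∀ b, F (σ b) (g (σ b)) = F b (f b)) :
    Kc F f g χ ↔ ∀ b, χ (σ b) = χ b := by
  constructor
  · exact fun h b => (h b (σ b) (hσ b).symm).symm
  · intro h b b' hb
    have : b' = σ b := hg.inj (hb.symm.trans (hσ b).symm)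
    rw [this, h]

theorem same_of_inv {σ : Equiv.Perm β} (h : ∀ b, χ (σ b) = χ b) {b b' : β}
    (hb : σ.SameCycle b b') : χ b = χ b' := by
  obtain ⟨i, rfl⟩ := hb
  have hn : ∀ (n : ℕ) (x : β), χ ((σ ^ n) x) = χ x := by
    intro n
    induction n with
    | zero => intro x; rfl
    | succ n ih =>
      intro x
      rw [pow_succ', Equiv.Perm.mul_apply, h, ih]
  rcases Int.eq_nat_or_neg i with ⟨n, rfl | rfl⟩
  · rw [zpow_natCast, hn]
  · rw [zpow_neg, zpow_natCast]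
    have := hn n ((σ ^ n)⁻¹ b)
    have e : (σ ^ n) ((σ ^ n)⁻¹ b) = b := Equiv.apply_symm_apply _ _
    rw [e] at this
    exact this

theorem sum_Ks (hg : IsM F V g) {σ : Equiv.Perm β}
    (hσ : ∀ b, F (σ b) (g (σ b)) = F b (f b)) [Fintype (Quotient (Equiv.Perm.SameCycle.setoid σ))]
    [DecidableEq (Quotient (Equiv.Perm.SameCycle.setoid σ))] (A : β → Bool → ℂ) :
    ∑ χ ∈ Ks F (f, g), ∏ b, A b (χ b) = ∏ q : Quotient (Equiv.Perm.SameCycle.setoid σ),
      (∏ b with (Quotient.mk (Equiv.Perm.SameCycle.setoid σ) b) = q, A b false +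
        ∏ b with (Quotient.mk (Equiv.Perm.SameCycle.setoid σ) b) = q, A b true) := by
  have h1 : ∑ ψ : Quotient (Equiv.Perm.SameCycle.setoid σ) → Bool,
      ∏ b, A b (ψ (Quotient.mk (Equiv.Perm.SameCycle.setoid σ) b)) =
        ∑ χ ∈ Ks F (f, g), ∏ b, A b (χ b) := by
    refine sum_nbij (fun ψ b => ψ (Quotient.mk (Equiv.Perm.SameCycle.setoid σ) b)) ?_ ?_ ?_ ?_
    · intro ψ _
      rw [mem_Ks]
      refine (Kc_iff hg hσ).2 fun b => ?_
      refine congrArg ψ (Quotient.sound ?_)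
      exact ⟨-1, by simp⟩
    · intro ψ _ ψ' _ h
      funext q
      obtain ⟨b, rfl⟩ := Quotient.exists_rep q
      exact congrFun h b
    · intro χ hχ
      rw [mem_coe, mem_Ks] at hχ
      have h2 := (Kc_iff hg hσ).1 hχ
      refine ⟨fun q => Quotient.liftOn q χ fun b b' hb => same_of_inv h2 hb, ?_, ?_⟩
      · simp
      · funext b
        rfl
    · intro ψ _
      rfl
  rw [← h1]
  have h2 : ∀ ψ : Quotient (Equiv.Perm.SameCycle.setoid σ) → Bool,
      ∏ b, A b (ψ (Quotient.mk (Equiv.Perm.SameCycle.setoid σ) b)) =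
        ∏ q, ∏ b with (Quotient.mk (Equiv.Perm.SameCycle.setoid σ) b) = q, A b (ψ q) := by
    intro ψ
    rw [← prod_fiberwise univ (fun b => Quotient.mk (Equiv.Perm.SameCycle.setoid σ) b)]
    refine prod_congr rfl fun q _ => prod_congr rfl fun b hb => ?_
    rw [(mem_filter.1 hb).2]
  rw [sum_congr rfl fun ψ _ => h2 ψ]
  have h3 := prod_univ_sum (ι := Quotient (Equiv.Perm.SameCycle.setoid σ))
    (fun _ => (univ : Finset Bool))
    (fun q x => ∏ b with (Quotient.mk (Equiv.Perm.SameCycle.setoid σ) b) = q, A b x)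
  rw [Fintype.piFinset_univ] at h3
  rw [← h3]
  refine prod_congr rfl fun q _ => ?_
  rw [Fintype.sum_bool, add_comm]

/-! ### one cycle -/

/-- the weighted sign -/
noncomputable def Tw (u : β → Fin 3 → ℝ) (t : ℝ) (p : (β → Fin 3) × (β → Fin 3)) : ℂ :=
  ∏ b, ((eps (p.2 b - p.1 b) : ℂ) * Complex.exp (Complex.I * (t * u b (p.1 b) : ℝ)))

/-- the factors -/
noncomputable def Aw (u : β → Fin 3 → ℝ) (t : ℝ) (f g : β → Fin 3) (b : β) (x : Bool) : ℂ :=
  if x then (eps (f b - g b) : ℂ) * Complex.exp (Complex.I * (t * u b (g b) : ℝ))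
  else (eps (g b - f b) : ℂ) * Complex.exp (Complex.I * (t * u b (f b) : ℝ))

theorem Tw_swp (u : β → Fin 3 → ℝ) (t : ℝ) (f g : β → Fin 3) (χ : β → Bool) :
    Tw u t (swp χ (f, g)) = ∏ b, Aw u t f g b (χ b) := by
  refine prod_congr rfl fun b _ => ?_
  simp only [swp, sw, Aw]
  split_ifs <;> rfl

theorem factor_eq (u : β → Fin 3 → ℝ) (t : ℝ) (f g : β → Fin 3) (C : Finset β) {s : ℤ} {n : ℕ}
    {a : ℝ} (hs : s = 1 ∨ s = -1) (hn : C.card = 2 * n + 1)
    (he : ∏ b ∈ C, eps (g b - f b) = s * (-1) ^ (n + 1))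
    (ha : ∑ b ∈ C, (u b (f b) - u b (g b)) = s * a) :
    ∏ b ∈ C, Aw u t f g b false + ∏ b ∈ C, Aw u t f g b true =
      (∏ b ∈ C, ((-Complex.I) * Complex.exp (Complex.I * (t * ((u b (f b) + u b (g b)) / 2) : ℝ)))) *
        ((2 * Real.sin (t * a / 2) : ℝ) : ℂ) := by
  have h1 : ∏ b ∈ C, Aw u t f g b false =
      ((∏ b ∈ C, eps (g b - f b) : ℤ) : ℂ) *
        Complex.exp (Complex.I * (t * ∑ b ∈ C, u b (f b) : ℝ)) := by
    simp only [Aw, Bool.false_eq_true, if_false]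
    rw [prod_mul_distrib, ← Complex.exp_sum, Int.cast_prod]
    congr 2
    push_cast
    rw [mul_sum, mul_sum]
  have h2 : ∏ b ∈ C, Aw u t f g b true =
      -((∏ b ∈ C, eps (g b - f b) : ℤ) : ℂ) *
        Complex.exp (Complex.I * (t * ∑ b ∈ C, u b (g b) : ℝ)) := by
    simp only [Aw, if_true]
    rw [prod_mul_distrib, ← Complex.exp_sum]
    congr 1
    · have e : ∀ b ∈ C, ((eps (f b - g b) : ℤ) : ℂ) = (-1) * ((eps (g b - f b) : ℤ) : ℂ) := by
        intro b _
        rw [← neg_sub (g b) (f b), eps_neg]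
        push_cast
        ring
      rw [prod_congr rfl e, prod_mul_distrib, prod_const, hn, Int.cast_prod]
      rw [pow_succ, pow_mul]
      norm_num
    · push_cast
      rw [mul_sum, mul_sum]
  have h3 : ∏ b ∈ C, ((-Complex.I) *
      Complex.exp (Complex.I * (t * ((u b (f b) + u b (g b)) / 2) : ℝ))) =
      (-1) ^ (n + 1) * Complex.I * Complex.exp (Complex.I *
        (t * ((∑ b ∈ C, u b (f b) + ∑ b ∈ C, u b (g b)) / 2) : ℝ)) := by
    rw [prod_mul_distrib, ← Complex.exp_sum, prod_const, hn]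
    congr 1
    · rw [pow_succ, pow_mul, neg_sq, Complex.I_sq, pow_succ]
      ring
    · congr 1
      rw [← mul_sum]
      congr 1
      rw [← Complex.ofReal_sum, ← mul_sum, ← sum_div, sum_add_distrib]
  set P : ℝ := ∑ b ∈ C, u b (f b) with hP
  set Q : ℝ := ∑ b ∈ C, u b (g b) with hQ
  have hPQ : P - Q = s * a := by rw [hP, hQ, ← sum_sub_distrib]; exact ha
  rw [h1, h2, h3, he]
  set mm : ℝ := (P + Q) / 2 with hmm
  have hP' : P = mm + s * a / 2 := by rw [hmm]; linarith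
  have hQ' : Q = mm - s * a / 2 := by rw [hmm]; linarith
  have e1 : Complex.exp (Complex.I * (t * P : ℝ)) = Complex.exp (Complex.I * (t * mm : ℝ)) *
      (Complex.cos (t * a / 2 : ℝ) + s * Complex.sin (t * a / 2 : ℝ) * Complex.I) := by
    rcases hs with rfl | rfl
    · rw [Int.cast_one, one_mul, ← Complex.exp_mul_I, ← Complex.exp_add, hP']
      congr 1
      push_cast
      ring
    · have : (Complex.cos (t * a / 2 : ℝ) + ((-1 : ℤ) : ℂ) * Complex.sin (t * a / 2 : ℝ) * Complex.I)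
          = Complex.exp ((-(t * a / 2 : ℝ) : ℂ) * Complex.I) := by
        rw [Complex.exp_mul_I, Complex.cos_neg, Complex.sin_neg]
        push_cast
        ring
      rw [this, ← Complex.exp_add, hP']
      congr 1
      push_cast
      ring
  have e2 : Complex.exp (Complex.I * (t * Q : ℝ)) = Complex.exp (Complex.I * (t * mm : ℝ)) *
      (Complex.cos (t * a / 2 : ℝ) - s * Complex.sin (t * a / 2 : ℝ) * Complex.I) := by
    rcases hs with rfl | rfl
    · have : (Complex.cos (t * a / 2 : ℝ) - ((1 : ℤ) : ℂ) * Complex.sin (t * a / 2 : ℝ) * Complex.I)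
          = Complex.exp ((-(t * a / 2 : ℝ) : ℂ) * Complex.I) := by
        rw [Complex.exp_mul_I, Complex.cos_neg, Complex.sin_neg]
        push_cast
        ring
      rw [this, ← Complex.exp_add, hQ']
      congr 1
      push_cast
      ring
    · have : (Complex.cos (t * a / 2 : ℝ) - ((-1 : ℤ) : ℂ) * Complex.sin (t * a / 2 : ℝ) * Complex.I)
          = Complex.exp (((t * a / 2 : ℝ) : ℂ) * Complex.I) := by
        rw [Complex.exp_mul_I]
        push_cast
        ring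
      rw [this, ← Complex.exp_add, hQ']
      congr 1
      push_cast
      ring
  rw [e1, e2]
  have hs2 : (s : ℂ) * s = 1 := by rcases hs with rfl | rfl <;> norm_num
  push_cast
  linear_combination (2 * (-1) ^ (n + 1) * Complex.I * Complex.sin (↑t * ↑a / 2) *
    Complex.exp (Complex.I * (↑t * ↑mm))) * hs2

/-- the data of a cycle (output of STEP 2 and of (*)) -/
def CycData (u : β → Fin 3 → ℝ) (f g : β → Fin 3) (C : Finset β) : Prop :=
  ∃ (s : ℤ) (n : ℕ) (a : ℝ), (s = 1 ∨ s = -1) ∧ 0 < a ∧ C.card = 2 * n + 1 ∧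
    ∏ b ∈ C, eps (g b - f b) = s * (-1) ^ (n + 1) ∧ ∑ b ∈ C, (u b (f b) - u b (g b)) = s * a

/-- total size of `u` -/
noncomputable def Ut (u : β → Fin 3 → ℝ) : ℝ := ∑ b, ∑ c, |u b c|

theorem Ut_nonneg (u : β → Fin 3 → ℝ) : 0 ≤ Ut u :=
  sum_nonneg fun _ _ => sum_nonneg fun _ _ => abs_nonneg _

theorem abs_le_row (u : β → Fin 3 → ℝ) (b : β) (c : Fin 3) : |u b c| ≤ ∑ c, |u b c| :=
  single_le_sum (f := fun c => |u b c|) (fun _ _ => abs_nonneg _) (mem_univ c)

theorem row_sum_le (u : β → Fin 3 → ℝ) (C : Finset β) : ∑ b ∈ C, ∑ c, |u b c| ≤ Ut u :=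
  sum_le_sum_of_subset_of_nonneg (subset_univ C)
    fun _ _ _ => sum_nonneg fun _ _ => abs_nonneg _

theorem pair_val {u : β → Fin 3 → ℝ} {t : ℝ} (ht : 0 < t) (htU : t * Ut u ≤ 1) (hf : IsM F V f)
    (hg : IsM F V g) (hcyc : ∀ σ : Equiv.Perm β, (∀ b, F (σ b) (g (σ b)) = F b (f b)) →
      ∀ C : Finset β, C.Nonempty → σ.IsCycleOn (C : Set β) → CycData u f g C) :
    ∃ z : ℂ, 0 < z.re ∧ ∑ χ ∈ Ks F (f, g), Tw u t (swp χ (f, g)) =
      (-Complex.I) ^ (Fintype.card β) * z := by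
  classical
  obtain ⟨σ, hσ⟩ := exists_perm hf hg
  haveI : Fintype (Quotient (Equiv.Perm.SameCycle.setoid σ)) := Fintype.ofFinite _
  let C : Quotient (Equiv.Perm.SameCycle.setoid σ) → Finset β := fun q =>
    univ.filter fun b => Quotient.mk (Equiv.Perm.SameCycle.setoid σ) b = q
  have hmem : ∀ q b, b ∈ C q ↔ Quotient.mk (Equiv.Perm.SameCycle.setoid σ) b = q := fun q b => by
    simp [C]
  have hC1 : ∀ q, (C q).Nonempty := fun q => by
    obtain ⟨b, hb⟩ := Quotient.exists_rep q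
    exact ⟨b, (hmem q b).2 hb⟩
  have hC2 : ∀ q, σ.IsCycleOn (C q : Set β) := fun q => by
    refine ⟨⟨fun b hb => ?_, σ.injective.injOn, fun b hb => ?_⟩, fun b hb b' hb' => ?_⟩
    · rw [mem_coe, hmem] at hb ⊢
      rw [← hb]
      exact Quotient.sound ⟨-1, by simp⟩
    · refine ⟨σ.symm b, ?_, σ.apply_symm_apply b⟩
      rw [mem_coe, hmem] at hb ⊢
      rw [← hb]
      exact Quotient.sound ⟨1, by simp⟩
    · rw [mem_coe, hmem] at hb hb'
      exact Quotient.exact (hb.trans hb'.symm)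
  choose s n a h1 h2 h3 h4 h5 using fun q => hcyc σ hσ (C q) (hC1 q) (hC2 q)
  have hA : ∀ q, t * a q / 2 ≤ 1 := by
    intro q
    have e1 : a q = |∑ b ∈ C q, (u b (f b) - u b (g b))| := by
      rw [h5, abs_mul, abs_of_pos (h2 q)]
      rcases h1 q with h | h <;> rw [h] <;> norm_num
    have e2 : a q ≤ 2 * Ut u := by
      rw [e1]
      refine (abs_sum_le_sum_abs _ _).trans ?_
      refine le_trans ?_ (mul_le_mul_of_nonneg_left (row_sum_le u (C q)) (by norm_num))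
      rw [mul_sum]
      refine sum_le_sum fun b _ => ?_
      have := abs_sub (u b (f b)) (u b (g b))
      have := abs_le_row u b (f b)
      have := abs_le_row u b (g b)
      linarith
    have : t * a q ≤ t * (2 * Ut u) := mul_le_mul_of_nonneg_left e2 ht.le
    linarith
  set ν : ℝ := ∑ b, (u b (f b) + u b (g b)) / 2 with hν
  have hν1 : |t * ν| ≤ 1 := by
    rw [abs_mul, abs_of_pos ht]
    refine le_trans (mul_le_mul_of_nonneg_left ?_ ht.le) htU
    rw [hν]
    refine (abs_sum_le_sum_abs _ _).trans ?_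
    refine sum_le_sum fun b _ => ?_
    rw [abs_div, abs_two]
    have := abs_add_le (u b (f b)) (u b (g b))
    have := abs_le_row u b (f b)
    have := abs_le_row u b (g b)
    linarith
  set R : ℝ := ∏ q, (2 * Real.sin (t * a q / 2)) with hR
  have hR0 : 0 < R := prod_pos fun q _ => mul_pos two_pos
    (Real.sin_pos_of_pos_of_le_one (by have := h2 q; positivity) (hA q))
  refine ⟨Complex.exp ((t * ν : ℝ) * Complex.I) * (R : ℂ), ?_, ?_⟩
  · rw [Complex.re_mul_ofReal, Complex.exp_ofReal_mul_I_re]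
    exact mul_pos (Real.cos_pos_of_le_one hν1) hR0
  · rw [sum_congr rfl fun χ _ => Tw_swp u t f g χ, sum_Ks hg hσ (Aw u t f g)]
    have e1 : ∀ q, (∏ b with (Quotient.mk (Equiv.Perm.SameCycle.setoid σ) b) = q,
        Aw u t f g b false + ∏ b with (Quotient.mk (Equiv.Perm.SameCycle.setoid σ) b) = q,
        Aw u t f g b true) = (∏ b with (Quotient.mk (Equiv.Perm.SameCycle.setoid σ) b) = q,
        ((-Complex.I) * Complex.exp (Complex.I * (t * ((u b (f b) + u b (g b)) / 2) : ℝ)))) *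
        ((2 * Real.sin (t * a q / 2) : ℝ) : ℂ) := fun q =>
      factor_eq u t f g (C q) (h1 q) (h3 q) (h4 q) (h5 q)
    rw [prod_congr rfl fun q _ => e1 q, prod_mul_distrib,
      prod_fiberwise univ (fun b => Quotient.mk (Equiv.Perm.SameCycle.setoid σ) b),
      prod_mul_distrib, prod_const, card_univ, ← Complex.exp_sum, hR, Complex.ofReal_prod,
      mul_assoc]
    congr 3
    rw [mul_comm _ Complex.I, ← mul_sum, hν]
    congr 1
    rw [← Complex.ofReal_sum, ← mul_sum]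

/-- **L4** : a signed sum is not zero. -/
theorem exists_sum_ne_zero (F : β → Fin 3 → δ) (V : Set δ) (u : β → Fin 3 → ℝ)
    (hcyc : ∀ f g, IsM F V f → IsM F V g → (∀ b, f b ≠ g b) →
      ∀ σ : Equiv.Perm β, (∀ b, F (σ b) (g (σ b)) = F b (f b)) →
      ∀ C : Finset β, C.Nonempty → σ.IsCycleOn (C : Set β) → CycData u f g C)
    (hex : ∃ f g, IsM F V f ∧ IsM F V g ∧ ∀ b, f b ≠ g b) :
    ∃ f, IsM F V f ∧ ∑ g ∈ Ms F V, sg f g ≠ 0 := by
  classical
  by_contra hcon
  push Not at hcon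
  set t : ℝ := 1 / (1 + Ut u) with ht
  have hU := Ut_nonneg u
  have ht0 : 0 < t := by positivity
  have htU : t * Ut u ≤ 1 := by
    rw [ht, one_div, inv_mul_le_iff₀ (by positivity)]
    linarith
  have hW : ∑ p ∈ Ms F V ×ˢ Ms F V, Tw u t p = 0 := by
    rw [sum_product]
    refine sum_eq_zero fun f hf => ?_
    have e : ∀ g ∈ Ms F V, Tw u t (f, g) =
        ((sg f g : ℤ) : ℂ) * ∏ b, Complex.exp (Complex.I * (t * u b (f b) : ℝ)) := by
      intro g _
      rw [Tw, prod_mul_distrib, sg, Int.cast_prod]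
    rw [sum_congr rfl e, ← sum_mul, ← Int.cast_sum, hcon f (mem_Ms.1 hf), Int.cast_zero, zero_mul]
  rw [sum_avg] at hW
  have hz : ∀ p ∈ Ms F V ×ˢ Ms F V, ∃ z : ℂ, 0 ≤ z.re ∧ ((∀ b, p.1 b ≠ p.2 b) → 0 < z.re) ∧
      ∑ χ ∈ Ks F p, Tw u t (swp χ p) = (-Complex.I) ^ (Fintype.card β) * z := by
    rintro ⟨f, g⟩ hp
    rw [mem_product, mem_Ms, mem_Ms] at hp
    by_cases hd : ∀ b, f b ≠ g b
    · obtain ⟨z, hz, h⟩ := pair_val ht0 htU hp.1 hp.2 (hcyc f g hp.1 hp.2 hd)
      exact ⟨z, hz.le, fun _ => hz, h⟩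
    · refine ⟨0, le_rfl, fun h => absurd h hd, ?_⟩
      push Not at hd
      obtain ⟨b, hb⟩ := hd
      rw [mul_zero]
      refine sum_eq_zero fun χ _ => ?_
      rw [Tw_swp]
      refine prod_eq_zero (mem_univ b) ?_
      simp only [Aw, hb, sub_self, eps_zero]
      split_ifs <;> simp
  choose! z hz1 hz2 hz3 using hz
  have h1 : (-Complex.I) ^ (Fintype.card β) *
      ∑ p ∈ Ms F V ×ˢ Ms F V, ((((Ks F p).card : ℝ)⁻¹ : ℝ) : ℂ) * z p = 0 := by
    rw [← hW, mul_sum]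
    refine sum_congr rfl fun p hp => ?_
    rw [hz3 p hp]
    push_cast
    ring
  have h2 : (-Complex.I) ^ (Fintype.card β) ≠ 0 := pow_ne_zero _ (neg_ne_zero.2 Complex.I_ne_zero)
  have h3 := congrArg Complex.re ((mul_eq_zero.1 h1).resolve_left h2)
  rw [Complex.re_sum, Complex.zero_re] at h3
  have h4 : ∀ p ∈ Ms F V ×ˢ Ms F V,
      (((((Ks F p).card : ℝ)⁻¹ : ℝ) : ℂ) * z p).re = ((Ks F p).card : ℝ)⁻¹ * (z p).re :=
    fun p _ => Complex.re_ofReal_mul _ _
  rw [sum_congr rfl h4] at h3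
  obtain ⟨f, g, hf, hg, hd⟩ := hex
  have hp : (f, g) ∈ Ms F V ×ˢ Ms F V := mem_product.2 ⟨mem_Ms.2 hf, mem_Ms.2 hg⟩
  have h5 : 0 < ∑ p ∈ Ms F V ×ˢ Ms F V, ((Ks F p).card : ℝ)⁻¹ * (z p).re :=
    sum_pos' (fun p hp => mul_nonneg (inv_nonneg.2 (Ks_pos p).le) (hz1 p hp))
      ⟨(f, g), hp, mul_pos (inv_pos.2 (Ks_pos _)) (hz2 _ hp hd)⟩
  exact h5.ne' h3

end

end Vale.Agent.P039.L4
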