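import Vale.Agent.P039.Bz.Stmt
import Vale.Agent.P039.H788.Det
import Vale.Agent.P039.H921.L4

/-!
# P039-B: `AbsStmt` (STEP 3 + STEP 4)
-/

set_option linter.all false

open Finset

namespace Vale.Agent.P039.L4

open Vale.Agent.P039 (Bz.Mat Bz.Disj Bz.Good Bz.Cyc Bz.Classes)

section

variable {B V : Type} [Fintype B] [DecidableEq B] [Fintype V] [DecidableEq V]
  {F : B → Fin 3 → Option V}

theorem isM_iff {f : B → Fin 3} : IsM F (Set.range some) f ↔ Bz.Mat F f := by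
  constructor
  · intro h
    have h1 : ∀ b, ∃ v, F b (f b) = some v := fun b => by
      obtain ⟨v, hv⟩ := h.mem b
      exact ⟨v, hv.symm⟩
    choose φ hφ using h1
    have hinj : Function.Injective φ := fun b b' hb => h.inj (by rw [hφ, hφ, hb])
    have hsurj : Function.Surjective φ := fun v => by
      obtain ⟨b, -, hb⟩ := h.surjOn ⟨v, rfl⟩
      refine ⟨b, ?_⟩
      change F b (f b) = some v at hb
      rw [hφ] at hb
      exact Option.some.inj hb
    exact ⟨Equiv.ofBijective φ ⟨hinj, hsurj⟩, hφ⟩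
  · rintro ⟨φ, hφ⟩
    refine ⟨fun b _ => ⟨φ b, (hφ b).symm⟩, fun b _ b' _ hb => ?_, ?_⟩
    · change F b (f b) = F b' (f b') at hb
      rw [hφ, hφ] at hb
      exact φ.injective (Option.some.inj hb)
    · rintro _ ⟨v, rfl⟩
      exact ⟨φ.symm v, Set.mem_univ _, by show F _ _ = _; rw [hφ, Equiv.apply_symm_apply]⟩

theorem eps_eq (i : Fin 3) : Bz.eps i = eps i := rfl

theorem eps788 (i : Fin 3) : Vale.P039.H788.eps i = eps i := by
  revert i; decide

end

end Vale.Agent.P039.L4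

namespace Vale.Agent.P039.Bz

open Vale.Agent.P039.L4 (isM_iff)

theorem absStmt_921 : AbsStmt := by
  classical
  intro B V _ _ _ _ F cl hcl hcyc hex
  obtain ⟨u, hu⟩ := hcyc
  -- STEP 4
  have hcyc' : ∀ f g, L4.IsM F (Set.range some) f → L4.IsM F (Set.range some) g →
      (∀ b, f b ≠ g b) → ∀ σ : Equiv.Perm B, (∀ b, F (σ b) (g (σ b)) = F b (f b)) →
      ∀ C : Finset B, C.Nonempty → σ.IsCycleOn (C : Set B) → L4.CycData u f g C := by
    intro f g hf hg hd σ hσ C hC hCσ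
    obtain ⟨φ, hφ⟩ := isM_iff.1 hf
    obtain ⟨ψ, hψ⟩ := isM_iff.1 hg
    have e : φ.trans ψ.symm = σ := by
      ext b
      have h1 := hσ b
      rw [hφ, hψ] at h1
      have h2 := Option.some.inj h1
      show ψ.symm (φ b) = σ b
      rw [← h2, Equiv.symm_apply_apply]
    obtain ⟨b₁, hb₁⟩ := hC
    obtain ⟨m, hm, hpos⟩ := hu f g φ ψ hφ hψ hd C b₁ fun b => by
      rw [e]
      constructor
      · intro hb
        exact hCσ.2 hb₁ hb
      · intro hb
        obtain ⟨i, rfl⟩ := hb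
        exact mem_coe.1 ((hCσ.1.perm_zpow i).mapsTo (mem_coe.2 hb₁))
    set P : ℤ := ∏ b ∈ C, L4.eps (g b - f b) with hP
    have hpos' : 0 < (-1 : ℝ) ^ m * (P : ℝ) * ∑ b ∈ C, (u b (f b) - u b (g b)) := hpos
    have hP1 : P = 1 ∨ P = -1 := by
      rw [hP]
      refine prod_induction _ (fun x : ℤ => x = 1 ∨ x = -1) ?_ (Or.inl rfl) ?_
      · rintro x y (rfl | rfl) (rfl | rfl) <;> norm_num
      · intro b _
        have : ∀ x : Fin 3, x ≠ 0 → L4.eps x = 1 ∨ L4.eps x = -1 := by decide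
        exact this _ (sub_ne_zero.2 (hd b).symm)
    have hs : (-1 : ℤ) ^ m * P = 1 ∨ (-1 : ℤ) ^ m * P = -1 := by
      rcases neg_one_pow_eq_or ℤ m with h | h <;> rcases hP1 with h' | h' <;> rw [h, h'] <;> simp
    refine ⟨(-1) ^ m * P, m + 1, (-1 : ℝ) ^ m * (P : ℝ) * ∑ b ∈ C, (u b (f b) - u b (g b)), hs,
      hpos', by omega, ?_, ?_⟩
    · rw [← hP]
      have e1 : ((-1 : ℤ) ^ m) * (-1) ^ m = 1 := by
        rw [← mul_pow]; simp
      rw [pow_succ, pow_succ]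
      linear_combination (-P) * e1
    · have e2 : (((-1 : ℤ) ^ m * P : ℤ) : ℝ) * (((-1 : ℤ) ^ m * P : ℤ) : ℝ) = 1 := by
        rcases hs with h | h <;> rw [h] <;> norm_num
      push_cast at e2 ⊢
      linear_combination (-∑ b ∈ C, (u b (f b) - u b (g b))) * e2
  obtain ⟨f, hf, h0⟩ := L4.exists_sum_ne_zero F (Set.range some) u hcyc' (by
    obtain ⟨f, g, hf, hg, hd⟩ := hex
    exact ⟨f, g, isM_iff.2 hf, isM_iff.2 hg, hd⟩)
  refine ⟨f, isM_iff.1 hf, ?_⟩
  obtain ⟨φ, hφ⟩ := isM_iff.1 hf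
  intro K hK
  have hcy : ∀ (g : B → Fin 3) (ψ : B ≃ V), (∀ b, F b (g b) = some (ψ b)) → (∀ b, g b ≠ f b) →
      ∀ c ∈ Equiv.Perm.cycleFactorsFinset (φ.trans ψ.symm), Odd (Equiv.Perm.support c).card := by
    intro g ψ hψ hd c hc
    have hne : (Equiv.Perm.support c).Nonempty := by
      rw [Finset.nonempty_iff_ne_empty, Ne, Equiv.Perm.support_eq_empty_iff]
      exact (Equiv.Perm.mem_cycleFactorsFinset_iff.1 hc).1.ne_one
    obtain ⟨b₁, hb₁⟩ := hne
    have hc' := Equiv.Perm.cycle_is_cycleOf hb₁ hc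
    obtain ⟨m, hm, -⟩ := hu f g φ ψ hφ hψ (fun b => (hd b).symm) (Equiv.Perm.support c) b₁
      fun b => by
        rw [hc', Equiv.Perm.mem_support_cycleOf_iff]
        refine and_iff_left ?_
        rw [hc', Equiv.Perm.mem_support_cycleOf_iff] at hb₁
        exact hb₁.2
    rw [hm]
    exact ⟨m + 1, by ring⟩
  have h1 : ∑ g ∈ univ.filter (Vale.P039.H788.IsMat F),
      ∏ b, Vale.P039.H788.eps (g b - f b) ≠ 0 := by
    have e : ∑ g ∈ L4.Ms F (Set.range some), L4.sg f g =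
        ∑ g ∈ univ.filter (Vale.P039.H788.IsMat F), ∏ b, Vale.P039.H788.eps (g b - f b) := by
      refine sum_congr ?_ fun g _ => ?_
      · ext g
        rw [L4.mem_Ms, isM_iff, mem_filter]
        exact ⟨fun h => ⟨mem_univ _, h⟩, fun h => h.2⟩
      · rw [L4.sg]
        exact prod_congr rfl fun b _ => (L4.eps788 _).symm
    rw [← e]
    exact h0
  obtain ⟨b, hb⟩ := Vale.P039.H788.step3 hcl hφ hcy h1 hK
  have n1 : ∀ x : Fin 3, x + 1 ≠ x := by decide
  have n2 : ∀ x : Fin 3, x + 2 ≠ x := by decide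
  by_cases h2 : ∃ v ∈ K, F b (f b + 1) = some v
  · refine ⟨b, f b + 1, f b + 2, n1 _, n2 _, h2, fun v hv h3 => hb ⟨fun _ => ⟨v, hv, h3⟩, fun _ => h2⟩⟩
  · by_cases h3 : ∃ v ∈ K, F b (f b + 2) = some v
    · refine ⟨b, f b + 2, f b + 1, n2 _, n1 _, h3, fun v hv h4 => h2 ⟨v, hv, h4⟩⟩
    · exact absurd ⟨fun h => absurd h h2, fun h => absurd h h3⟩ hb

end Vale.Agent.P039.Bz
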